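import Vale.Agent.P183.H330D.Defs
import Vale.Agent.P183.H330M.Final

/-!
Definitions for the extension theorem with tight fibres above.
-/

namespace Vale.Agent.P183.H238

open Vale.Agent.P183 Vale.Agent.P183.H330D
open Vale.Agent.P183.H330M (DistribOver AllBelow)

/-- The link from the fibre over `r` to the fibre over `t` is transposed: for the greatest
element `h` of the lower fibre, `y ↦ y ⊓ h` is an isomorphism of the upper fibre onto an upset of
the lower fibre. -/
def TransposedLink {L K : Type} [Lattice L] [Lattice K] (f : LatticeHom L K) (r t : K) : Prop :=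
  ∃ h, f h = r ∧ (∀ x, f x = r → x ≤ h) ∧ (∀ y y', f y = t → f y' = t → y ⊓ h ≤ y' → y ≤ y') ∧
    ∀ x y, f x = r → f y = t → y ⊓ h ≤ x → ∃ y', f y' = t ∧ y' ⊓ h = x

/-- The links into the fibre over `t` are tight, compatibly. -/
def CompatTight {L K : Type} [Lattice L] [Lattice K] (f : LatticeHom L K) (t : K) : Prop :=
  ∀ r x y, r ⋖ t → f x = r → f y = t → ¬ x ≤ y → ∃ (u : K → L) (d : L),
    f d = t ∧ ¬ d ≤ y ∧ ¬ x ≤ u r ∧ (∀ q, q < t → f (u q) = q) ∧
    (∀ p q z, p ≤ q → q < t → f z = p → (z ≤ u q ↔ z ≤ u p)) ∧
    ∀ q z, q < t → f z = q → z ≤ u q ∨ ∀ w, f w = t → z ≤ w → d ≤ w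

/-- Narrow traces outside `N`: for the greatest element `h` of the fibre over `t` and every `s > t`
outside `N`, each of the elements `x ⊓ h` with `f x = s` is incomparable with at most one other. -/
def NarrowOff {L K : Type} [Lattice L] [Lattice K] (f : LatticeHom L K) (N : Set K) (t : K) :
    Prop :=
  ∀ h, f h = t → (∀ l, f l = t → l ≤ h) → ∀ x y z, f x ∉ N → t < f x → f x = f y → f x = f z →
    ¬ x ⊓ h ≤ y ⊓ h → ¬ y ⊓ h ≤ x ⊓ h → ¬ x ⊓ h ≤ z ⊓ h → ¬ z ⊓ h ≤ x ⊓ h → y ⊓ h = z ⊓ h

/-- The traces on the fibre over `r` of the elements over `t` form a chain. -/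
def ChainTrace {L K : Type} [Lattice L] [Lattice K] (f : LatticeHom L K) (r t : K) : Prop :=
  ∀ y y', f y = t → f y' = t →
    (∀ x, f x = r → x ≤ y → x ≤ y') ∨ ∀ x, f x = r → x ≤ y' → x ≤ y

/-- Tight fibres above: there is an up-set `N` of the quotient such that (i) outside `N` every
fibre is distributive, or it is an interval `[H, G]` in the subgroup lattice of a finite group,
lies above everything under it, and has narrow traces on the fibres outside `N`; (ii) over `N`
every fibre is distributive, or it is an interval `[H, G]` and either its links are compatibly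
tight, or it has only one lower cover `r`, `r` is in `N`, and the link is transposed; (iii) if `t`
in `N` is not maximal and `r`, `r'` are incomparable elements below `t` and `r` is in `N`, then
every element over `r ⊓ r'` is below every element over `t`, or the fibre over `t` is distributive
and has chain traces on the fibres over those of `r`, `r'` which are in `N`. -/
def TightAbove {L K : Type} [Lattice L] [Lattice K] (f : LatticeHom L K) : Prop :=
  ∃ N : Set K, IsUpperSet N ∧
    (∀ t, t ∉ N → DistribOver f t ∨
      (IsGroupInterval {l : L // f l = t} ∧ AllBelow f t ∧ NarrowOff f N t)) ∧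
    (∀ t, t ∈ N → DistribOver f t ∨ (IsGroupInterval {l : L // f l = t} ∧
      (CompatTight f t ∨ ∃ r, r ∈ N ∧ r ⋖ t ∧ (∀ r', r' ⋖ t → r' = r) ∧
        TransposedLink f r t))) ∧
    ∀ t r r', t ∈ N → ¬ IsMax t → r < t → r' < t → ¬ r ≤ r' → ¬ r' ≤ r → r ∈ N →
      (∀ x y, f x = r ⊓ r' → f y = t → x ≤ y) ∨
        (DistribOver f t ∧ ChainTrace f r t ∧ (r' ∈ N → ChainTrace f r' t))

/-- `L` cannot be reduced: it is subdirectly irreducible, and for every homomorphism `f` from `L`
onto a lattice which is not injective neither `f` nor its dual is tight above. -/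
def TightIrreducible (L : Type) [Lattice L] : Prop :=
  SubdirectlyIrreducible L ∧ ∀ (K : Type) (_ : Lattice K) (f : LatticeHom L K),
    Function.Surjective f → ¬ Function.Injective f →
      ¬ TightAbove f ∧ ¬ TightAbove (LatticeHom.dual f)

end Vale.Agent.P183.H238
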